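import Vale.Agent.H13.BinPack.Core
import Vale.Agent.H13.BinPack.Dual

namespace Vale.Agent.Results.P302.LargeOrTiny

open Finset Vale.Agent.H13.BinPack

variable {n : ℕ}

/-- `a` is a bin packing instance with `n` items. -/
def IsInstance (a : Fin n → ℚ) : Prop := ∀ i, 0 < a i ∧ a i ≤ 1

open Classical in
/-- The items with property `p` can be packed into `m` bins. -/
def Packable (a : Fin n → ℚ) (p : Fin n → Prop) (m : ℕ) : Prop :=
  ∃ f : Fin n → Fin m, ∀ b, ∑ i ∈ univ.filter (fun i => p i ∧ f i = b), a i ≤ 1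

/-- The least number of bins into which all items can be packed. -/
noncomputable def OPT (a : Fin n → ℚ) : ℕ := sInf {m | Packable a (fun _ => True) m}

theorem opt_le {a : Fin n → ℚ} {m : ℕ} (h : PackN a univ m) : OPT a ≤ m := by
  obtain ⟨f, hf, hb⟩ := h
  apply Nat.sInf_le
  refine ⟨fun i => ⟨f i, hf i (mem_univ i)⟩, ?_⟩
  intro b
  refine le_trans (le_of_eq ?_) (hb b)
  apply Finset.sum_congr _ (fun _ _ => rfl)
  ext i
  simp [Fin.ext_iff]

theorem large (a : Fin n → ℚ) (ha : IsInstance a) :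
    ∃ k, PackN a (univ.filter (fun i => 1 / 3 < a i)) k ∧ (k : ℤ) ≤ ⌈LP a⌉ := by
  set S := univ.filter (fun i => 1 / 3 < a i) with hS
  obtain ⟨k, hk, hcert⟩ := core a S.card S rfl (fun i hi => by
    rw [hS, Finset.mem_filter] at hi
    exact ⟨hi.2, (ha i).2⟩)
  refine ⟨k, hk, ?_⟩
  have key : 2 * (k:ℝ) ≤ 2 * LP a + 1 := by
    rcases hcert with h | ⟨α, h1, h2, h3⟩
    · have := dual_half a ha
      have h' : 2 * (k:ℝ) ≤ (S.card : ℝ) + 1 := by exact_mod_cast h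
      linarith
    · have h4 := dual_alpha a ha α h1 h2
      have h5 : (S.filter (fun i => 1 - α < a i)).card ≤
          (univ.filter (fun i => 1 - α < a i)).card :=
        Finset.card_le_card (Finset.filter_subset_filter _ (Finset.subset_univ _))
      have h6 : (S.filter (fun i => α ≤ a i ∧ a i ≤ 1 - α)).card ≤
          (univ.filter (fun i => α ≤ a i ∧ a i ≤ 1 - α)).card :=
        Finset.card_le_card (Finset.filter_subset_filter _ (Finset.subset_univ _))
      have h7 : 2 * k ≤ 2 * (univ.filter (fun i => 1 - α < a i)).card +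
          (univ.filter (fun i => α ≤ a i ∧ a i ≤ 1 - α)).card + 1 := by omega
      have h8 : 2 * (k:ℝ) ≤ 2 * ((univ.filter (fun i => 1 - α < a i)).card : ℝ) +
          ((univ.filter (fun i => α ≤ a i ∧ a i ≤ 1 - α)).card : ℝ) + 1 := by exact_mod_cast h7
      linarith
  have : (k:ℤ) - 1 < ⌈LP a⌉ := by
    rw [Int.lt_ceil]
    push_cast
    linarith
  omega

/-- items in `S` are packed in `m` bins, the others are small -/
theorem extend (a : Fin n → ℚ) (ha : IsInstance a) (p : Fin n → Prop) [DecidablePred p] (m : ℕ)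
    (hk : PackN a (univ.filter p) m)
    (hsmall : ∀ i, ¬ p i → (⌈LP a⌉ : ℝ) * (a i : ℝ) ≤ ⌈LP a⌉ + 1 - ((∑ j, a j : ℚ) : ℝ)) :
    (OPT a : ℤ) ≤ max (m : ℤ) (⌈LP a⌉ + 1) := by
  have hT0 : 0 ≤ ∑ i, a i := Finset.sum_nonneg (fun i _ => (ha i).1.le)
  have hT := total_le a ha
  have hL0 : 0 ≤ ⌈LP a⌉ := by
    apply Int.ceil_nonneg
    refine le_trans ?_ hT
    exact_mod_cast hT0
  obtain ⟨L, hL⟩ := Int.eq_ofNat_of_zero_le hL0
  rw [hL]
  have hM : PackN a (univ.filter p ∪ univ.filter (fun i => ¬ p i)) (max m (L + 1)) := by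
    apply first_fit a (fun i => (ha i).1) (max m (L + 1)) (le_max_of_le_right (by omega))
      (∑ i, a i) _ (hk.mono (le_max_left _ _)) _ (Finset.disjoint_filter_filter_not _ _ _)
    · intro i hi
      rw [Finset.mem_filter] at hi
      have h1 := hsmall i hi.2
      rw [hL] at h1
      have h2 : (L:ℚ) * a i ≤ L + 1 - ∑ j, a j := by exact_mod_cast h1
      have h3 : ((L:ℚ) + 1) ≤ ((max m (L + 1) : ℕ) : ℚ) := by
        exact_mod_cast le_max_right _ _
      have h4 := (ha i).2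
      nlinarith
    · rw [Finset.filter_union_filter_not_eq]
  rw [Finset.filter_union_filter_not_eq] at hM
  have := opt_le hM
  have h5 : ((max m (L + 1) : ℕ) : ℤ) = max (m : ℤ) ((L:ℤ) + 1) := by push_cast; rfl
  show (OPT a : ℤ) ≤ max (m : ℤ) ((L:ℤ) + 1)
  rw [← h5]
  exact_mod_cast this

theorem mirup_cond (a : Fin n → ℚ) (ha : IsInstance a)
    (h : ∀ i, 1 / 3 < a i ∨
      (⌈LP a⌉ : ℝ) * (a i : ℝ) ≤ ⌈LP a⌉ + 1 - ((∑ j, a j : ℚ) : ℝ)) :
    (OPT a : ℤ) ≤ ⌈LP a⌉ + 1 := by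
  obtain ⟨k, hk, hle⟩ := large a ha
  have := extend a ha (fun i => 1 / 3 < a i) k hk (fun i hi => (h i).resolve_left hi)
  refine le_trans this (max_le ?_ le_rfl)
  omega

/-- `(1)` integer round-up for sizes `> 1/3`; `(2)` MIRUP when every item is larger than `1/3` or
small; `(3)` MIRUP for all instances of total size at most `11/3`; `(4)` small items may be
removed. -/
theorem result :
    (∀ (n : ℕ) (a : Fin n → ℚ), IsInstance a → (∀ i, 1 / 3 < a i) → (OPT a : ℤ) ≤ ⌈LP a⌉) ∧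
    (∀ (n : ℕ) (a : Fin n → ℚ), IsInstance a →
      (∀ i, 1 / 3 < a i ∨
        (⌈LP a⌉ : ℝ) * (a i : ℝ) ≤ ⌈LP a⌉ + 1 - ((∑ j, a j : ℚ) : ℝ)) →
      (OPT a : ℤ) ≤ ⌈LP a⌉ + 1) ∧
    (∀ (n : ℕ) (a : Fin n → ℚ), IsInstance a → ∑ j, a j ≤ 11 / 3 →
      (OPT a : ℤ) ≤ ⌈LP a⌉ + 1) ∧
    (∀ (n : ℕ) (a : Fin n → ℚ) (m : ℕ), IsInstance a →
      Packable a (fun i => ¬ (⌈LP a⌉ : ℝ) * (a i : ℝ) ≤
        ⌈LP a⌉ + 1 - ((∑ j, a j : ℚ) : ℝ)) m →
      (OPT a : ℤ) ≤ max (m : ℤ) (⌈LP a⌉ + 1)) := by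
  refine ⟨?_, ?_, ?_, ?_⟩
  · intro n a ha h3
    obtain ⟨k, hk, hle⟩ := large a ha
    have hS : univ.filter (fun i => 1 / 3 < a i) = univ :=
      Finset.filter_true_of_mem (fun i _ => h3 i)
    rw [hS] at hk
    have := opt_le hk
    omega
  · intro n a ha h
    exact mirup_cond a ha h
  · intro n a ha hT
    apply mirup_cond a ha
    intro i
    by_cases h : 1 / 3 < a i
    · exact Or.inl h
    right
    have hT0 : 0 ≤ ∑ i, a i := Finset.sum_nonneg (fun i _ => (ha i).1.le)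
    have hTL := total_le a ha
    have hL0 : 0 ≤ ⌈LP a⌉ := by
      apply Int.ceil_nonneg
      refine le_trans ?_ hTL
      exact_mod_cast hT0
    have hTL2 : ((∑ j, a j : ℚ) : ℝ) ≤ ⌈LP a⌉ := le_trans hTL (Int.le_ceil _)
    obtain ⟨L, hL⟩ := Int.eq_ofNat_of_zero_le hL0
    rw [hL] at hTL2 ⊢
    have h1 : ∑ j, a j ≤ (L:ℚ) := by exact_mod_cast hTL2
    have h2 : (L:ℚ) * a i ≤ L + 1 - ∑ j, a j := by
      have h3 : a i ≤ 1 / 3 := not_lt.1 h
      have h4 : (L:ℚ) * a i ≤ L * (1 / 3) := mul_le_mul_of_nonneg_left h3 (by positivity)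
      by_cases hL4 : 4 ≤ L
      · have : (4:ℚ) ≤ L := by exact_mod_cast hL4
        linarith
      · have : (L:ℚ) ≤ 3 := by exact_mod_cast (by omega : L ≤ 3)
        linarith
    exact_mod_cast h2
  · intro n a m ha hp
    classical
    obtain ⟨f, hf⟩ := hp
    have hk : PackN a (univ.filter (fun i => ¬ (⌈LP a⌉ : ℝ) * (a i : ℝ) ≤
        ⌈LP a⌉ + 1 - ((∑ j, a j : ℚ) : ℝ))) m := by
      refine ⟨fun i => (f i : ℕ), fun i _ => (f i).2, ?_⟩
      intro b
      by_cases hb : b < m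
      · refine le_trans (le_of_eq ?_) (hf ⟨b, hb⟩)
        rw [Finset.filter_filter]
        apply Finset.sum_congr _ (fun _ _ => rfl)
        ext i
        simp [Fin.ext_iff]
      · have : (univ.filter (fun i => ¬ (⌈LP a⌉ : ℝ) * (a i : ℝ) ≤
            ⌈LP a⌉ + 1 - ((∑ j, a j : ℚ) : ℝ))).filter (fun i => (f i : ℕ) = b) = ∅ := by
          rw [Finset.filter_eq_empty_iff]
          intro i _ h
          exact hb (h ▸ (f i).2)
        rw [this]
        simp
    apply extend a ha (fun i => ¬ (⌈LP a⌉ : ℝ) * (a i : ℝ) ≤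
        ⌈LP a⌉ + 1 - ((∑ j, a j : ℚ) : ℝ)) m hk
    intro i hi
    exact not_not.1 hi

end Vale.Agent.Results.P302.LargeOrTiny
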